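import Mathlib

/-!
Capacity of points for near-1-wall isometries of a sesquilinear form, any dimension, any normed
field (proof A2 of helper854): two near-1-wall isometries of comparable size which contract the
same vector at the full rate differ by a bounded element.  The matrices act on columns.
-/

set_option linter.unusedSectionVars false

namespace Vale.Agent.P092.H789.S2

open Matrix

variable {k : Type*} [NormedField k] {ι : Type*} [Fintype ι] [DecidableEq ι]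

/-- the sesquilinear form with matrix `K`, linear in the first variable. -/
def bf (σ : k →+* k) (K : Matrix ι ι k) (x y : ι → k) : k := x ⬝ᵥ (K *ᵥ fun i => σ (y i))

/-- isometries of `bf σ K`, acting on columns. -/
def Iso (σ : k →+* k) (K g : Matrix ι ι k) : Prop := gᵀ * K * g.map σ = K

/-- the basis vectors. -/
def ee (j : ι) : ι → k := Pi.single j 1

section basic
variable {σ : k →+* k} {K : Matrix ι ι k}

theorem mulVec_ee (g : Matrix ι ι k) (j i : ι) : (g *ᵥ ee j) i = g i j := by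
  simp [ee]

theorem norm_ee (j : ι) : ‖(ee j : ι → k)‖ ≤ 1 := by
  refine (pi_norm_le_iff_of_nonneg zero_le_one).2 fun i => ?_
  unfold ee
  by_cases h : i = j
  · subst h; simp
  · simp [h]

theorem map_mulVec (g : Matrix ι ι k) (y : ι → k) :
    (fun i => σ ((g *ᵥ y) i)) = (g.map σ) *ᵥ fun i => σ (y i) := by
  ext i
  simp [Matrix.mulVec, dotProduct]

theorem Iso.bf {g : Matrix ι ι k} (h : Iso σ K g) (x y : ι → k) :
    bf σ K (g *ᵥ x) (g *ᵥ y) = bf σ K x y := by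
  unfold S2.bf
  rw [map_mulVec]
  calc (g *ᵥ x) ⬝ᵥ (K *ᵥ (g.map σ *ᵥ fun i => σ (y i)))
      = (x ᵥ* gᵀ) ⬝ᵥ (K *ᵥ (g.map σ *ᵥ fun i => σ (y i))) := by rw [Matrix.vecMul_transpose]
    _ = x ⬝ᵥ (gᵀ *ᵥ (K *ᵥ (g.map σ *ᵥ fun i => σ (y i)))) :=
        (Matrix.dotProduct_mulVec _ _ _).symm
    _ = x ⬝ᵥ ((gᵀ * K * g.map σ) *ᵥ fun i => σ (y i)) := by
        simp only [Matrix.mulVec_mulVec, Matrix.mul_assoc]
    _ = x ⬝ᵥ (K *ᵥ fun i => σ (y i)) := by rw [h]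

theorem bf_add_left (x x' y : ι → k) : bf σ K (x + x') y = bf σ K x y + bf σ K x' y := by
  simp [bf, add_dotProduct]

theorem bf_smul_left (c : k) (x y : ι → k) : bf σ K (c • x) y = c * bf σ K x y := by
  simp [bf, smul_dotProduct]

theorem bf_add_right (x y y' : ι → k) : bf σ K x (y + y') = bf σ K x y + bf σ K x y' := by
  unfold bf
  have : (fun i => σ ((y + y') i)) = (fun i => σ (y i)) + fun i => σ (y' i) := by
    ext i; simp
  rw [this, Matrix.mulVec_add, dotProduct_add]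

theorem bf_smul_right (c : k) (x y : ι → k) : bf σ K x (c • y) = σ c * bf σ K x y := by
  unfold bf
  have : (fun i => σ ((c • y) i)) = σ c • fun i => σ (y i) := by
    ext i; simp
  rw [this, Matrix.mulVec_smul, dotProduct_smul, smul_eq_mul]

theorem bf_sub_left (x x' y : ι → k) : bf σ K (x - x') y = bf σ K x y - bf σ K x' y := by
  simp [bf, sub_dotProduct]

theorem bf_sub_right (x y y' : ι → k) : bf σ K x (y - y') = bf σ K x y - bf σ K x y' := by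
  have h := bf_add_right (σ := σ) (K := K) x (y - y') y'
  rw [sub_add_cancel] at h
  rw [h]; ring

theorem bf_eq_sum (x y : ι → k) : bf σ K x y = ∑ j, (x ᵥ* K) j * σ (y j) := by
  unfold bf
  rw [Matrix.dotProduct_mulVec]
  rfl

end basic

/-- the quantitative nondegeneracy used: one constant. -/
structure Bd (σ : k →+* k) (K : Matrix ι ι k) (β : ℝ) : Prop where
  isom : ∀ x, ‖σ x‖ = ‖x‖
  one_le : 1 ≤ β
  up : ∀ x y, ‖bf σ K x y‖ ≤ β * ‖x‖ * ‖y‖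
  lo : ∀ x, ∀ m : ℝ, 0 ≤ m → (∀ i, ‖bf σ K x (ee i)‖ ≤ m) → ‖x‖ ≤ β * m
  mn : ∀ p q r s : ι → k, ∀ m : ℝ, 0 ≤ m → (∀ i j, ‖r i * s j - s i * r j‖ ≤ m) →
    ‖bf σ K p r * bf σ K q s - bf σ K p s * bf σ K q r‖ ≤ β * ‖p‖ * ‖q‖ * m

/-- every invertible form matrix is bounded in this sense. -/
theorem exists_bd {σ : k →+* k} (hσ : ∀ x, ‖σ x‖ = ‖x‖) {K K' : Matrix ι ι k} (h : K * K' = 1) :
    ∃ β : ℝ, Bd σ K β := by
  obtain ⟨b, hb⟩ : ∃ b : ℝ, 1 ≤ b ∧ (∀ i j, ‖K i j‖ ≤ b) ∧ ∀ i j, ‖K' i j‖ ≤ b := by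
    refine ⟨1 + ∑ i, ∑ j, ‖K i j‖ + ∑ i, ∑ j, ‖K' i j‖, ?_, fun i j => ?_, fun i j => ?_⟩
    · have h1 : 0 ≤ ∑ i, ∑ j, ‖K i j‖ :=
        Finset.sum_nonneg fun i _ => Finset.sum_nonneg fun j _ => norm_nonneg _
      have h2 : 0 ≤ ∑ i, ∑ j, ‖K' i j‖ :=
        Finset.sum_nonneg fun i _ => Finset.sum_nonneg fun j _ => norm_nonneg _
      linarith
    · have h1 : ‖K i j‖ ≤ ∑ j, ‖K i j‖ :=
        Finset.single_le_sum (f := fun j => ‖K i j‖) (fun j _ => norm_nonneg _)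
          (Finset.mem_univ j)
      have h2 : ∑ j, ‖K i j‖ ≤ ∑ i, ∑ j, ‖K i j‖ :=
        Finset.single_le_sum (f := fun i => ∑ j, ‖K i j‖)
          (fun i _ => Finset.sum_nonneg fun j _ => norm_nonneg _) (Finset.mem_univ i)
      have h3 : 0 ≤ ∑ i, ∑ j, ‖K' i j‖ :=
        Finset.sum_nonneg fun i _ => Finset.sum_nonneg fun j _ => norm_nonneg _
      linarith
    · have h1 : ‖K' i j‖ ≤ ∑ j, ‖K' i j‖ :=
        Finset.single_le_sum (f := fun j => ‖K' i j‖) (fun j _ => norm_nonneg _)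
          (Finset.mem_univ j)
      have h2 : ∑ j, ‖K' i j‖ ≤ ∑ i, ∑ j, ‖K' i j‖ :=
        Finset.single_le_sum (f := fun i => ∑ j, ‖K' i j‖)
          (fun i _ => Finset.sum_nonneg fun j _ => norm_nonneg _) (Finset.mem_univ i)
      have h3 : 0 ≤ ∑ i, ∑ j, ‖K i j‖ :=
        Finset.sum_nonneg fun i _ => Finset.sum_nonneg fun j _ => norm_nonneg _
      linarith
  obtain ⟨b1, bK, bK'⟩ := hb
  set n : ℝ := ((Fintype.card ι : ℕ) : ℝ) with hn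
  have hn0 : 0 ≤ n := Nat.cast_nonneg _
  have b0 : 0 ≤ b := zero_le_one.trans b1
  have hv : ∀ (x : ι → k) j, ‖(x ᵥ* K) j‖ ≤ n * b * ‖x‖ := fun x j => by
    calc ‖(x ᵥ* K) j‖ = ‖∑ i, x i * K i j‖ := rfl
      _ ≤ ∑ i, ‖x i * K i j‖ := norm_sum_le _ _
      _ ≤ ∑ _i : ι, ‖x‖ * b := Finset.sum_le_sum fun i _ => by
          rw [norm_mul]
          exact mul_le_mul (norm_le_pi_norm x i) (bK i j) (norm_nonneg _) (norm_nonneg _)
      _ = n * b * ‖x‖ := by simp [hn]; ring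
  refine ⟨1 + n * b + n * (n * b) + n * (n * ((n * b) * (n * b))), hσ, ?_, ?_, ?_, ?_⟩
  · have : 0 ≤ n * b + n * (n * b) + n * (n * ((n * b) * (n * b))) := by positivity
    linarith
  · intro x y
    rw [bf_eq_sum]
    have h1 : ∀ j, ‖(x ᵥ* K) j * σ (y j)‖ ≤ n * b * ‖x‖ * ‖y‖ := fun j => by
      rw [norm_mul, hσ]
      exact mul_le_mul (hv x j) (norm_le_pi_norm y j) (norm_nonneg _) (by positivity)
    calc ‖∑ j, (x ᵥ* K) j * σ (y j)‖ ≤ ∑ j, ‖(x ᵥ* K) j * σ (y j)‖ := norm_sum_le _ _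
      _ ≤ ∑ _j : ι, n * b * ‖x‖ * ‖y‖ := Finset.sum_le_sum fun j _ => h1 j
      _ = n * (n * b) * ‖x‖ * ‖y‖ := by simp [hn]; ring
      _ ≤ (1 + n * b + n * (n * b) + n * (n * ((n * b) * (n * b)))) * ‖x‖ * ‖y‖ := by
          gcongr
          have : 0 ≤ 1 + n * b + n * (n * ((n * b) * (n * b))) := by positivity
          linarith
  · intro x m hm hx
    have e : ∀ i, bf σ K x (ee i) = (x ᵥ* K) i := fun i => by
      have : (fun l => σ ((ee i : ι → k) l)) = (Pi.single i 1 : ι → k) := by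
        ext l
        by_cases hl : l = i
        · subst hl; simp [ee]
        · simp [ee, hl]
      rw [bf, this, Matrix.dotProduct_mulVec, dotProduct_single, mul_one]
    have e2 : x = (x ᵥ* K) ᵥ* K' := by rw [Matrix.vecMul_vecMul, h, Matrix.vecMul_one]
    have h2 : ‖x‖ ≤ n * b * m := by
      refine (pi_norm_le_iff_of_nonneg (by positivity)).2 fun i => ?_
      rw [e2]
      calc ‖((x ᵥ* K) ᵥ* K') i‖ = ‖∑ j, (x ᵥ* K) j * K' j i‖ := rfl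
        _ ≤ ∑ j, ‖(x ᵥ* K) j * K' j i‖ := norm_sum_le _ _
        _ ≤ ∑ _j : ι, m * b := Finset.sum_le_sum fun j _ => by
            rw [norm_mul, ← e j]
            exact mul_le_mul (hx j) (bK' j i) (norm_nonneg _) hm
        _ = n * b * m := by simp [hn]; ring
    refine h2.trans ?_
    gcongr
    have : 0 ≤ 1 + n * (n * b) + n * (n * ((n * b) * (n * b))) := by positivity
    linarith
  · intro p q r s m hm hrs
    have e : bf σ K p r * bf σ K q s - bf σ K p s * bf σ K q r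
        = ∑ j, ∑ j', (p ᵥ* K) j * (q ᵥ* K) j' * σ (r j * s j' - s j * r j') := by
      simp only [bf_eq_sum, Finset.sum_mul_sum, ← Finset.sum_sub_distrib, map_sub, map_mul]
      refine Finset.sum_congr rfl fun j _ => Finset.sum_congr rfl fun j' _ => ?_
      ring
    rw [e]
    have h1 : ∀ j j', ‖(p ᵥ* K) j * (q ᵥ* K) j' * σ (r j * s j' - s j * r j')‖
        ≤ (n * b * ‖p‖) * (n * b * ‖q‖) * m := fun j j' => by
      rw [norm_mul, norm_mul, hσ]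
      have a1 := hv p j
      have a2 := hv q j'
      have a3 := hrs j j'
      gcongr
    calc ‖∑ j, ∑ j', (p ᵥ* K) j * (q ᵥ* K) j' * σ (r j * s j' - s j * r j')‖
        ≤ ∑ j, ∑ j', ‖(p ᵥ* K) j * (q ᵥ* K) j' * σ (r j * s j' - s j * r j')‖ :=
          (norm_sum_le _ _).trans (Finset.sum_le_sum fun i _ => norm_sum_le _ _)
      _ ≤ ∑ _j : ι, ∑ _j' : ι, (n * b * ‖p‖) * (n * b * ‖q‖) * m :=
          Finset.sum_le_sum fun i _ => Finset.sum_le_sum fun j _ => h1 i j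
      _ = n * (n * ((n * b) * (n * b))) * ‖p‖ * ‖q‖ * m := by simp [hn]; ring
      _ ≤ (1 + n * b + n * (n * b) + n * (n * ((n * b) * (n * b)))) * ‖p‖ * ‖q‖ * m := by
          gcongr
          have : 0 ≤ 1 + n * b + n * (n * b) := by positivity
          linarith

/-- near-1-wall isometries of size `M` (only upper bounds are used). -/
structure NW (σ : k →+* k) (K : Matrix ι ι k) (C M : ℝ) (g : Matrix ι ι k) : Prop where
  iso : Iso σ K g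
  up : ∀ i j, ‖g i j‖ ≤ M
  mn : ∀ i i' j j', ‖g i j * g i' j' - g i j' * g i' j‖ ≤ C * M

section cap
variable {σ : k →+* k} {K : Matrix ι ι k} {β : ℝ}

theorem norm_mulVec_ee {g : Matrix ι ι k} {M : ℝ} (hM : 0 ≤ M) (up : ∀ i j, ‖g i j‖ ≤ M)
    (j : ι) : ‖g *ᵥ ee j‖ ≤ M := by
  refine (pi_norm_le_iff_of_nonneg hM).2 fun l => ?_
  rw [mulVec_ee]; exact up _ _

theorem fin_est {β C M x gv n t w : ℝ} (hβ : 1 ≤ β) (hM : 0 < M) (hx : 0 ≤ x)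
    (hn : 0 ≤ n) (hC : 1 ≤ C) (hc : M * gv ≤ C * x)
    (ht : M * t ≤ β ^ 3 * C ^ 2 * x * n) (hw : w ≤ β * gv * n + t) :
    M * w ≤ 2 * β ^ 3 * C ^ 2 * x * n := by
  have hβ0 : 0 < β := lt_of_lt_of_le one_pos hβ
  have h1 : M * (β * gv * n) ≤ β ^ 3 * C ^ 2 * x * n := by
    calc M * (β * gv * n) = β * (M * gv) * n := by ring
      _ ≤ β * (C * x) * n := by gcongr
      _ = (β * C) * x * n := by ring
      _ ≤ (β ^ 3 * C ^ 2) * x * n := by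
          have q1 : β ^ 1 ≤ β ^ 3 := pow_le_pow_right₀ hβ (by norm_num)
          have q2 : C ^ 1 ≤ C ^ 2 := pow_le_pow_right₀ hC (by norm_num)
          rw [pow_one] at q1 q2
          gcongr
  calc M * w ≤ M * (β * gv * n + t) := by gcongr
    _ = M * (β * gv * n) + M * t := by ring
    _ ≤ 2 * β ^ 3 * C ^ 2 * x * n := by linarith

/-- decomposition of a vector along a contracted vector `v`. -/
theorem split (hB : Bd σ K β) {C M : ℝ} (hC : 1 ≤ C) (hM : 0 < M) {g : Matrix ι ι k}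
    (hg : NW σ K C M g) {v : ι → k} (hv : v ≠ 0) (hc : M * ‖g *ᵥ v‖ ≤ C * ‖v‖) (y : ι → k) :
    ∃ (a : k) (d : ι → k), y = a • v + d ∧ ‖a‖ * ‖v‖ ≤ β ^ 2 * M * ‖g *ᵥ y‖ ∧
      ‖d‖ ≤ β ^ 3 * C ^ 2 * ‖g *ᵥ y‖ ∧
      M * ‖bf σ K v d‖ ≤ 2 * β ^ 3 * C ^ 2 * ‖v‖ * ‖g *ᵥ y‖ ∧
      M * ‖bf σ K d v‖ ≤ 2 * β ^ 3 * C ^ 2 * ‖v‖ * ‖g *ᵥ y‖ := by
  have hβ := hB.one_le
  have hβ0 : 0 < β := lt_of_lt_of_le one_pos hβ
  have hC0 : 0 < C := lt_of_lt_of_le one_pos hC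
  have hv0 : 0 < ‖v‖ := norm_pos_iff.2 hv
  set n := ‖g *ᵥ y‖ with hn
  have hn0 : 0 ≤ n := norm_nonneg _
  -- a good basis vector
  obtain ⟨b, hb⟩ : ∃ b, ‖v‖ ≤ β * ‖bf σ K v (ee b)‖ := by
    by_contra hcon
    push Not at hcon
    have hne : Nonempty ι := by
      by_contra he
      rw [not_nonempty_iff] at he
      exact hv (Subsingleton.elim _ _)
    obtain ⟨i₀, -, hi₀⟩ := Finset.exists_max_image (Finset.univ : Finset ι)
      (fun i => ‖bf σ K v (ee i)‖) Finset.univ_nonempty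
    have h1 := hB.lo v (‖bf σ K v (ee i₀)‖) (norm_nonneg _) fun i => hi₀ i (Finset.mem_univ i)
    exact absurd (hcon i₀) (not_lt.2 h1)
  set s : k := bf σ K v (ee b) with hs
  have hs0 : 0 < ‖s‖ := by
    by_contra hn'
    have : ‖s‖ = 0 := le_antisymm (not_lt.1 hn') (norm_nonneg _)
    rw [this, mul_zero] at hb
    linarith
  have hs1 : s ≠ 0 := norm_pos_iff.1 hs0
  set a : k := bf σ K y (ee b) / s with ha
  set d : ι → k := y - a • v with hd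
  have hgv : 0 ≤ ‖g *ᵥ v‖ := norm_nonneg _
  -- size of a
  have han : ‖a‖ * ‖v‖ ≤ β ^ 2 * M * n := by
    have h1 : ‖bf σ K y (ee b)‖ ≤ β * n * M := by
      rw [← hg.iso.bf]
      refine (hB.up _ _).trans ?_
      have := norm_mulVec_ee hM.le hg.up b
      gcongr
    rw [ha, norm_div, div_mul_eq_mul_div, div_le_iff₀ hs0]
    calc ‖bf σ K y (ee b)‖ * ‖v‖ ≤ (β * n * M) * (β * ‖s‖) := by gcongr
      _ = β ^ 2 * M * n * ‖s‖ := by ring
  -- size of bf v v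
  have hvv : M ^ 2 * ‖bf σ K v v‖ ≤ β * C ^ 2 * ‖v‖ ^ 2 := by
    rw [← hg.iso.bf]
    calc M ^ 2 * ‖bf σ K (g *ᵥ v) (g *ᵥ v)‖ ≤ M ^ 2 * (β * ‖g *ᵥ v‖ * ‖g *ᵥ v‖) := by
          gcongr; exact hB.up _ _
      _ = β * (M * ‖g *ᵥ v‖) * (M * ‖g *ᵥ v‖) := by ring
      _ ≤ β * (C * ‖v‖) * (C * ‖v‖) := by gcongr
      _ = β * C ^ 2 * ‖v‖ ^ 2 := by ring
  have havv : M * (‖a‖ * ‖bf σ K v v‖) ≤ β ^ 3 * C ^ 2 * ‖v‖ * n := by
    have h1 : (M * ‖v‖) * (M * (‖a‖ * ‖bf σ K v v‖))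
        ≤ (M * ‖v‖) * (β ^ 3 * C ^ 2 * ‖v‖ * n) := by
      calc (M * ‖v‖) * (M * (‖a‖ * ‖bf σ K v v‖))
          = (‖a‖ * ‖v‖) * (M ^ 2 * ‖bf σ K v v‖) := by ring
        _ ≤ (β ^ 2 * M * n) * (β * C ^ 2 * ‖v‖ ^ 2) := by gcongr
        _ = (M * ‖v‖) * (β ^ 3 * C ^ 2 * ‖v‖ * n) := by ring
    exact le_of_mul_le_mul_left h1 (by positivity)
  refine ⟨a, d, ?_, han, ?_, ?_, ?_⟩
  · rw [hd]; abel
  · have h1 : ∀ i, ‖bf σ K d (ee i)‖ ≤ β ^ 2 * C ^ 2 * n := fun i => by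
      have e1 : bf σ K d (ee i) = (bf σ K y (ee i) * bf σ K v (ee b)
          - bf σ K y (ee b) * bf σ K v (ee i)) / s := by
        rw [hd, bf_sub_left, bf_smul_left, ha, ← hs]
        field_simp
      rw [e1, norm_div, div_le_iff₀ hs0]
      have e2 : bf σ K y (ee i) * bf σ K v (ee b) - bf σ K y (ee b) * bf σ K v (ee i)
          = bf σ K (g *ᵥ y) (g *ᵥ ee i) * bf σ K (g *ᵥ v) (g *ᵥ ee b)
            - bf σ K (g *ᵥ y) (g *ᵥ ee b) * bf σ K (g *ᵥ v) (g *ᵥ ee i) := by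
        rw [hg.iso.bf, hg.iso.bf, hg.iso.bf, hg.iso.bf]
      rw [e2]
      have h2 := hB.mn (g *ᵥ y) (g *ᵥ v) (g *ᵥ ee i) (g *ᵥ ee b) (C * M) (by positivity)
        (fun l l' => by
          rw [mulVec_ee, mulVec_ee, mulVec_ee, mulVec_ee]
          exact hg.mn l l' i b)
      calc _ ≤ β * n * ‖g *ᵥ v‖ * (C * M) := h2
        _ = β * C * n * (M * ‖g *ᵥ v‖) := by ring
        _ ≤ β * C * n * (C * ‖v‖) := by gcongr
        _ ≤ β * C * n * (C * (β * ‖s‖)) := by gcongr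
        _ = β ^ 2 * C ^ 2 * n * ‖s‖ := by ring
    calc ‖d‖ ≤ β * (β ^ 2 * C ^ 2 * n) := hB.lo d _ (by positivity) h1
      _ = β ^ 3 * C ^ 2 * n := by ring
  · have e1 : bf σ K v d = bf σ K (g *ᵥ v) (g *ᵥ y) - σ a * bf σ K v v := by
      rw [hd, bf_sub_right, bf_smul_right, hg.iso.bf]
    rw [e1]
    have h1 : ‖bf σ K (g *ᵥ v) (g *ᵥ y) - σ a * bf σ K v v‖
        ≤ β * ‖g *ᵥ v‖ * n + ‖a‖ * ‖bf σ K v v‖ := by
      refine (norm_sub_le _ _).trans (add_le_add (hB.up _ _) ?_)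
      rw [norm_mul, hB.isom]
    exact fin_est hβ hM (norm_nonneg v) hn0 hC hc havv h1
  · have e1 : bf σ K d v = bf σ K (g *ᵥ y) (g *ᵥ v) - a * bf σ K v v := by
      rw [hd, bf_sub_left, bf_smul_left, hg.iso.bf]
    rw [e1]
    have h1 : ‖bf σ K (g *ᵥ y) (g *ᵥ v) - a * bf σ K v v‖
        ≤ β * ‖g *ᵥ v‖ * n + ‖a‖ * ‖bf σ K v v‖ := by
      refine (norm_sub_le _ _).trans (add_le_add ?_ ?_)
      · refine (hB.up _ _).trans (le_of_eq ?_)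
        rw [← hn]; ring
      · rw [norm_mul]
    exact fin_est hβ hM (norm_nonneg v) hn0 hC hc havv h1

/-- **CAPACITY OF POINTS, any dimension, any form**: `h` is bounded relative to `g`. -/
theorem cap_vec (hB : Bd σ K β) {C M N : ℝ} (hC : 1 ≤ C) (hM : 0 < M) (hN : 0 < N)
    {g h : Matrix ι ι k} (hg : NW σ K C M g) (hh : NW σ K C N h) (hMN : M ≤ C * N)
    (hNM : N ≤ C * M) {v : ι → k} (hv : v ≠ 0) (vg : M * ‖g *ᵥ v‖ ≤ C * ‖v‖)
    (vh : N * ‖h *ᵥ v‖ ≤ C * ‖v‖) {h' : Matrix ι ι k} (hinv : h * h' = 1) (y : ι → k) :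
    ‖h *ᵥ y‖ ≤ 6 * β ^ 8 * C ^ 4 * ‖g *ᵥ y‖ := by
  have hβ := hB.one_le
  have hβ0 : 0 < β := lt_of_lt_of_le one_pos hβ
  have hC0 : 0 < C := lt_of_lt_of_le one_pos hC
  have hv0 : 0 < ‖v‖ := norm_pos_iff.2 hv
  obtain ⟨a, d, hy, ha, hd, hvd, hdv⟩ := split hB hC hM hg hv vg y
  set n := ‖g *ᵥ y‖ with hn
  have hn0 : 0 ≤ n := norm_nonneg _
  have key : ∀ i, ‖bf σ K (h *ᵥ y) (ee i)‖ ≤ 6 * β ^ 7 * C ^ 4 * n := by
    intro i
    obtain ⟨a', d', hy', ha', hd', hvd', hdv'⟩ := split hB hC hN hh hv vh (h' *ᵥ ee i)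
    have e0 : h *ᵥ (h' *ᵥ ee i) = ee i := by
      rw [Matrix.mulVec_mulVec, hinv, Matrix.one_mulVec]
    rw [e0] at ha' hd' hvd' hdv'
    set n' := ‖(ee i : ι → k)‖ with hn'
    have hn'0 : 0 ≤ n' := norm_nonneg _
    have hn'1 : n' ≤ 1 := norm_ee i
    have ha1 : ‖a'‖ * ‖v‖ ≤ β ^ 2 * N := ha'.trans (by
      have : 0 ≤ β ^ 2 * N := by positivity
      nlinarith)
    have hd1 : ‖d'‖ ≤ β ^ 3 * C ^ 2 := hd'.trans (by
      have : 0 ≤ β ^ 3 * C ^ 2 := by positivity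
      nlinarith)
    have hvd1 : N * ‖bf σ K v d'‖ ≤ 2 * β ^ 3 * C ^ 2 * ‖v‖ := hvd'.trans (by
      have : 0 ≤ 2 * β ^ 3 * C ^ 2 * ‖v‖ := by positivity
      nlinarith)
    have e1 : bf σ K (h *ᵥ y) (ee i) = a * (σ a' * bf σ K v v) + a * bf σ K v d'
        + σ a' * bf σ K d v + bf σ K d d' := by
      calc bf σ K (h *ᵥ y) (ee i) = bf σ K (h *ᵥ y) (h *ᵥ (h' *ᵥ ee i)) := by rw [e0]
        _ = bf σ K y (h' *ᵥ ee i) := hh.iso.bf _ _
        _ = bf σ K (a • v + d) (a' • v + d') := by rw [← hy, ← hy']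
        _ = _ := by
            rw [bf_add_left, bf_add_right, bf_add_right, bf_smul_left, bf_smul_right,
              bf_smul_left, bf_smul_right]
            ring
    have hvv : M ^ 2 * ‖bf σ K v v‖ ≤ β * C ^ 2 * ‖v‖ ^ 2 := by
      rw [← hg.iso.bf]
      calc M ^ 2 * ‖bf σ K (g *ᵥ v) (g *ᵥ v)‖ ≤ M ^ 2 * (β * ‖g *ᵥ v‖ * ‖g *ᵥ v‖) := by
            gcongr; exact hB.up _ _
        _ = β * (M * ‖g *ᵥ v‖) * (M * ‖g *ᵥ v‖) := by ring
        _ ≤ β * (C * ‖v‖) * (C * ‖v‖) := by gcongr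
        _ = β * C ^ 2 * ‖v‖ ^ 2 := by ring
    have t1 : ‖a * (σ a' * bf σ K v v)‖ ≤ β ^ 5 * C ^ 3 * n := by
      rw [norm_mul, norm_mul, hB.isom]
      have h1 : (M ^ 2 * ‖v‖ ^ 2) * (‖a‖ * (‖a'‖ * ‖bf σ K v v‖))
          ≤ (M ^ 2 * ‖v‖ ^ 2) * (β ^ 5 * C ^ 3 * n) := by
        calc (M ^ 2 * ‖v‖ ^ 2) * (‖a‖ * (‖a'‖ * ‖bf σ K v v‖))
            = (‖a‖ * ‖v‖) * (‖a'‖ * ‖v‖) * (M ^ 2 * ‖bf σ K v v‖) := by ring
          _ ≤ (β ^ 2 * M * n) * (β ^ 2 * (C * M)) * (β * C ^ 2 * ‖v‖ ^ 2) := by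
              have : ‖a'‖ * ‖v‖ ≤ β ^ 2 * (C * M) := ha1.trans (by gcongr)
              gcongr
          _ = (M ^ 2 * ‖v‖ ^ 2) * (β ^ 5 * C ^ 3 * n) := by ring
      exact le_of_mul_le_mul_left h1 (by positivity)
    have t2 : ‖a * bf σ K v d'‖ ≤ 2 * β ^ 5 * C ^ 3 * n := by
      rw [norm_mul]
      have h1 : (‖v‖ * N) * (‖a‖ * ‖bf σ K v d'‖) ≤ (‖v‖ * N) * (2 * β ^ 5 * C ^ 3 * n) := by
        calc (‖v‖ * N) * (‖a‖ * ‖bf σ K v d'‖) = (‖a‖ * ‖v‖) * (N * ‖bf σ K v d'‖) := by ring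
          _ ≤ (β ^ 2 * (C * N) * n) * (2 * β ^ 3 * C ^ 2 * ‖v‖) := by
              have : ‖a‖ * ‖v‖ ≤ β ^ 2 * (C * N) * n := ha.trans (by gcongr)
              gcongr
          _ = (‖v‖ * N) * (2 * β ^ 5 * C ^ 3 * n) := by ring
      exact le_of_mul_le_mul_left h1 (by positivity)
    have t3 : ‖σ a' * bf σ K d v‖ ≤ 2 * β ^ 5 * C ^ 3 * n := by
      rw [norm_mul, hB.isom]
      have h1 : (‖v‖ * M) * (‖a'‖ * ‖bf σ K d v‖) ≤ (‖v‖ * M) * (2 * β ^ 5 * C ^ 3 * n) := by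
        calc (‖v‖ * M) * (‖a'‖ * ‖bf σ K d v‖) = (‖a'‖ * ‖v‖) * (M * ‖bf σ K d v‖) := by ring
          _ ≤ (β ^ 2 * (C * M)) * (2 * β ^ 3 * C ^ 2 * ‖v‖ * n) := by
              have : ‖a'‖ * ‖v‖ ≤ β ^ 2 * (C * M) := ha1.trans (by gcongr)
              gcongr
          _ = (‖v‖ * M) * (2 * β ^ 5 * C ^ 3 * n) := by ring
      exact le_of_mul_le_mul_left h1 (by positivity)
    have t4 : ‖bf σ K d d'‖ ≤ β ^ 7 * C ^ 4 * n := by
      calc ‖bf σ K d d'‖ ≤ β * ‖d‖ * ‖d'‖ := hB.up _ _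
        _ ≤ β * (β ^ 3 * C ^ 2 * n) * (β ^ 3 * C ^ 2) := by gcongr
        _ = β ^ 7 * C ^ 4 * n := by ring
    have p1 : β ^ 5 * C ^ 3 ≤ β ^ 7 * C ^ 4 := by
      have q1 : β ^ 5 ≤ β ^ 7 := pow_le_pow_right₀ hβ (by norm_num)
      have q2 : C ^ 3 ≤ C ^ 4 := pow_le_pow_right₀ hC (by norm_num)
      gcongr
    have p2 : β ^ 5 * C ^ 3 * n ≤ β ^ 7 * C ^ 4 * n := by gcongr
    rw [e1]
    calc ‖a * (σ a' * bf σ K v v) + a * bf σ K v d' + σ a' * bf σ K d v + bf σ K d d'‖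
        ≤ ‖a * (σ a' * bf σ K v v)‖ + ‖a * bf σ K v d'‖ + ‖σ a' * bf σ K d v‖
          + ‖bf σ K d d'‖ := by
          refine (norm_add_le _ _).trans (add_le_add_left ?_ _)
          refine (norm_add_le _ _).trans (add_le_add_left ?_ _)
          exact norm_add_le _ _
      _ ≤ 6 * β ^ 7 * C ^ 4 * n := by nlinarith
  calc ‖h *ᵥ y‖ ≤ β * (6 * β ^ 7 * C ^ 4 * n) := hB.lo _ _ (by positivity) key
    _ = 6 * β ^ 8 * C ^ 4 * n := by ring

/-- **CAPACITY OF POINTS**, entries of `h g⁻¹`. -/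
theorem cap_pt (hB : Bd σ K β) {C M N : ℝ} (hC : 1 ≤ C) (hM : 0 < M) (hN : 0 < N)
    {g h : Matrix ι ι k} (hg : NW σ K C M g) (hh : NW σ K C N h) (hMN : M ≤ C * N)
    (hNM : N ≤ C * M) {v : ι → k} (hv : v ≠ 0) (vg : M * ‖g *ᵥ v‖ ≤ C * ‖v‖)
    (vh : N * ‖h *ᵥ v‖ ≤ C * ‖v‖) {g' h' : Matrix ι ι k} (ginv : g * g' = 1)
    (hinv : h * h' = 1) (i j : ι) : ‖(h * g') i j‖ ≤ 6 * β ^ 8 * C ^ 4 := by
  have hβ := hB.one_le
  have hβ0 : 0 < β := lt_of_lt_of_le one_pos hβ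
  have hC0 : 0 < C := lt_of_lt_of_le one_pos hC
  have h1 := cap_vec hB hC hM hN hg hh hMN hNM hv vg vh hinv (g' *ᵥ ee j)
  rw [Matrix.mulVec_mulVec, Matrix.mulVec_mulVec, ginv, Matrix.one_mulVec] at h1
  calc ‖(h * g') i j‖ = ‖((h * g') *ᵥ ee j) i‖ := by rw [mulVec_ee]
    _ ≤ ‖(h * g') *ᵥ ee j‖ := norm_le_pi_norm _ i
    _ ≤ 6 * β ^ 8 * C ^ 4 * ‖(ee j : ι → k)‖ := h1
    _ ≤ 6 * β ^ 8 * C ^ 4 * 1 := by gcongr; exact norm_ee j
    _ = 6 * β ^ 8 * C ^ 4 := mul_one _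

/-- who is contracted: if `g v` is (quantitatively) opposite to the largest column of `g`. -/
theorem contr_of_opp (hB : Bd σ K β) {M c : ℝ} (hc : 0 < c) {g : Matrix ι ι k}
    (hg : Iso σ K g) {j : ι} (hj : M ≤ ‖g *ᵥ ee j‖) {v : ι → k}
    (hopp : c * ‖g *ᵥ v‖ * ‖g *ᵥ ee j‖ ≤ ‖bf σ K (g *ᵥ v) (g *ᵥ ee j)‖) :
    M * ‖g *ᵥ v‖ ≤ β / c * ‖v‖ := by
  have hβ := hB.one_le
  have hβ0 : 0 < β := lt_of_lt_of_le one_pos hβ
  rw [hg.bf] at hopp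
  have h1 : ‖bf σ K v (ee j)‖ ≤ β * ‖v‖ := by
    refine (hB.up _ _).trans ?_
    have := norm_ee (k := k) j
    calc β * ‖v‖ * ‖(ee j : ι → k)‖ ≤ β * ‖v‖ * 1 := by gcongr
      _ = β * ‖v‖ := mul_one _
  rw [div_mul_eq_mul_div, le_div_iff₀ hc]
  calc M * ‖g *ᵥ v‖ * c = c * ‖g *ᵥ v‖ * M := by ring
    _ ≤ c * ‖g *ᵥ v‖ * ‖g *ᵥ ee j‖ := by gcongr
    _ ≤ β * ‖v‖ := hopp.trans h1

end cap

section bridge
variable {σ : k →+* k} {J J' g : Matrix ι ι k}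

/-- members of the form group `g J σ(g)ᵀ = J` are isometries for the column action, of the
inverse transposed form. -/
theorem iso_col (hJ : J * J' = 1) (h : g * J * (g.map σ)ᵀ = J) : Iso σ J'ᵀ g := by
  have hJ' : J' * J = 1 := mul_eq_one_comm.1 hJ
  have h1 : g * (J * (g.map σ)ᵀ * J') = 1 := by
    calc g * (J * (g.map σ)ᵀ * J') = (g * J * (g.map σ)ᵀ) * J' := by
          simp only [Matrix.mul_assoc]
      _ = 1 := by rw [h, hJ]
  have h2 : (J * (g.map σ)ᵀ * J') * g = 1 := mul_eq_one_comm.1 h1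
  have h3 : (g.map σ)ᵀ * J' * g = J' := by
    calc (g.map σ)ᵀ * J' * g = (J' * J) * ((g.map σ)ᵀ * J' * g) := by rw [hJ', Matrix.one_mul]
      _ = J' * ((J * (g.map σ)ᵀ * J') * g) := by simp only [Matrix.mul_assoc]
      _ = J' := by rw [h2, Matrix.mul_one]
  unfold Iso
  calc gᵀ * J'ᵀ * g.map σ = ((g.map σ)ᵀ * J' * g)ᵀ := by
        simp only [Matrix.transpose_mul, Matrix.transpose_transpose, Matrix.mul_assoc]
    _ = J'ᵀ := by rw [h3]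

/-- the row action: `gᵀ` is an isometry of `J` itself. -/
theorem iso_row (h : g * J * (g.map σ)ᵀ = J) : Iso σ J gᵀ := by
  unfold Iso
  rw [Matrix.transpose_transpose, Matrix.transpose_map]
  exact h

theorem exists_bd_col (hσ : ∀ x, ‖σ x‖ = ‖x‖) (hJ : J * J' = 1) : ∃ β : ℝ, Bd σ J'ᵀ β := by
  refine exists_bd hσ (K := J'ᵀ) (K' := Jᵀ) ?_
  rw [← Matrix.transpose_mul, hJ, Matrix.transpose_one]

end bridge

end Vale.Agent.P092.H789.S2
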