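import Vale.Agent.P092.H337.NGb

/-!
P092, stages 2 and 3 of Team P, row [P2-GEOF] (helper789): the two gauges of an element of the
unitary group of ANY sesquilinear form, in any dimension: `L1 = 2 log ‖g‖ - log ‖Λ² g‖` (first
gap), `L2 = 2 log ‖Λ² g‖ - 2 log ‖g‖` (all the other gaps together). Any normed field, any
isometric `σ`, any invertible matrix `J`.
-/

namespace Vale.Agent.P092.H789.S2

open Matrix
open Vale.Agent.P092.H337.NG

variable {k : Type*} [NormedField k] {n : ℕ} {σ : k →+* k}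

/-- `g` preserves the sesquilinear form with matrix `J`: `g J σ(g)ᵀ = J`. -/
def Fo (σ : k →+* k) (J : Matrix (Fin n) (Fin n) k) (g : SLn k n) : Prop :=
  g.1 * J * (g.1.map σ)ᵀ = J

/-- The first gap. -/
noncomputable def L1 (g : SLn k n) : ℝ := 2 * Real.log (en g.1) - Real.log (m2 g.1)

/-- All the other gaps together. -/
noncomputable def L2 (g : SLn k n) : ℝ := 2 * Real.log (m2 g.1) - 2 * Real.log (en g.1)

theorem L1_eq (g : SLn k n) : L1 g = G1 g := rfl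

theorem map_mul' (A B : Matrix (Fin n) (Fin n) k) : (A * B).map σ = A.map σ * B.map σ :=
  Matrix.map_mul

theorem map_one' : ((1 : Matrix (Fin n) (Fin n) k)).map σ = 1 :=
  Matrix.map_one _ (map_zero σ) (map_one σ)

theorem Fo.one (J : Matrix (Fin n) (Fin n) k) : Fo σ J (1 : SLn k n) := by
  have h1 : (1 : SLn k n).1 = (1 : Matrix (Fin n) (Fin n) k) := rfl
  have h2 : (1 : Matrix (Fin n) (Fin n) k) * J * ((1 : Matrix (Fin n) (Fin n) k).map σ)ᵀ = J := by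
    rw [map_one', Matrix.transpose_one, Matrix.one_mul, Matrix.mul_one]
  exact h2

theorem Fo.mul {J : Matrix (Fin n) (Fin n) k} {g h : SLn k n} (hg : Fo σ J g)
    (hh : Fo σ J h) : Fo σ J (g * h) := by
  unfold Fo at *
  rw [coe_mul', map_mul', Matrix.transpose_mul]
  calc g.1 * h.1 * J * ((h.1.map σ)ᵀ * (g.1.map σ)ᵀ)
      = g.1 * (h.1 * J * (h.1.map σ)ᵀ) * (g.1.map σ)ᵀ := by simp only [Matrix.mul_assoc]
    _ = J := by rw [hh, hg]

theorem map_inv_mul (g : SLn k n) : (g.1.map σ)ᵀ * ((g⁻¹).1.map σ)ᵀ = 1 := by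
  rw [← Matrix.transpose_mul, ← map_mul', coe_inv_mul, map_one', Matrix.transpose_one]

theorem Fo.inv {J : Matrix (Fin n) (Fin n) k} {g : SLn k n} (hg : Fo σ J g) :
    Fo σ J g⁻¹ := by
  unfold Fo at *
  calc (g⁻¹).1 * J * ((g⁻¹).1.map σ)ᵀ
      = (g⁻¹).1 * (g.1 * J * (g.1.map σ)ᵀ) * ((g⁻¹).1.map σ)ᵀ := by rw [hg]
    _ = ((g⁻¹).1 * g.1) * J * ((g.1.map σ)ᵀ * ((g⁻¹).1.map σ)ᵀ) := by
        simp only [Matrix.mul_assoc]
    _ = J := by rw [map_inv_mul, coe_inv_mul, Matrix.one_mul, Matrix.mul_one]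

/-- The inverse of an isometry. -/
theorem Fo.coe_inv {J J' : Matrix (Fin n) (Fin n) k} (hJ : J * J' = 1) {g : SLn k n}
    (hg : Fo σ J g) : (g⁻¹).1 = J * (g.1.map σ)ᵀ * J' := by
  have h1 := coe_inv_mul g
  unfold Fo at hg
  calc (g⁻¹).1 = (g⁻¹).1 * (J * J') := by rw [hJ, Matrix.mul_one]
    _ = (g⁻¹).1 * ((g.1 * J * (g.1.map σ)ᵀ) * J') := by rw [hg]
    _ = ((g⁻¹).1 * g.1) * (J * (g.1.map σ)ᵀ * J') := by simp only [Matrix.mul_assoc]
    _ = _ := by rw [h1, Matrix.one_mul]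

theorem en_transpose (A : Matrix (Fin n) (Fin n) k) : en Aᵀ = en A := by
  refine le_antisymm ?_ ?_
  · exact en_le_of (en_nonneg _) fun i j => entry_le A j i
  · exact en_le_of (en_nonneg _) fun i j => entry_le Aᵀ j i

theorem mi_transpose (A : Matrix (Fin n) (Fin n) k) (i i' j j' : Fin n) :
    mi Aᵀ i i' j j' = mi A j j' i i' := by
  unfold mi
  simp only [transpose_apply]
  ring

theorem m2_transpose (A : Matrix (Fin n) (Fin n) k) : m2 Aᵀ = m2 A := by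
  refine le_antisymm ?_ ?_
  · exact m2_le_of (m2_nonneg _) fun i i' j j' => by rw [mi_transpose]; exact mi_le _ _ _ _ _
  · refine m2_le_of (m2_nonneg _) fun i i' j j' => ?_
    have := mi_le Aᵀ j j' i i'
    rwa [mi_transpose] at this

theorem en_map (hσ : ∀ x, ‖σ x‖ = ‖x‖) (A : Matrix (Fin n) (Fin n) k) :
    en (A.map σ) = en A := by
  refine le_antisymm ?_ ?_
  · exact en_le_of (en_nonneg _) fun i j => by rw [map_apply, hσ]; exact entry_le A i j
  · exact en_le_of (en_nonneg _) fun i j => by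
      rw [← hσ (A i j)]; exact entry_le (A.map σ) i j

theorem mi_map (A : Matrix (Fin n) (Fin n) k) (i i' j j' : Fin n) :
    mi (A.map σ) i i' j j' = σ (mi A i i' j j') := by
  unfold mi
  simp only [map_apply, map_sub, map_mul]

theorem m2_map (hσ : ∀ x, ‖σ x‖ = ‖x‖) (A : Matrix (Fin n) (Fin n) k) :
    m2 (A.map σ) = m2 A := by
  refine le_antisymm ?_ ?_
  · exact m2_le_of (m2_nonneg _) fun i i' j j' => by
      rw [mi_map, hσ]; exact mi_le _ _ _ _ _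
  · refine m2_le_of (m2_nonneg _) fun i i' j j' => ?_
    have := mi_le (A.map σ) i i' j j'
    rwa [mi_map, hσ] at this

theorem en_inv_le (hσ : ∀ x, ‖σ x‖ = ‖x‖) {J J' : Matrix (Fin n) (Fin n) k}
    (hJ : J * J' = 1) {g : SLn k n} (hg : Fo σ J g) :
    en (g⁻¹).1 ≤ (n ^ 2 * (en J * en J')) * en g.1 := by
  rw [hg.coe_inv hJ]
  have h1 := en_mul (J * (g.1.map σ)ᵀ) J'
  have h2 := en_mul J (g.1.map σ)ᵀ
  rw [en_transpose, en_map hσ] at h2
  have h3 := en_nonneg J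
  have h4 := en_nonneg J'
  have h5 := en_nonneg g.1
  have hn : (0 : ℝ) ≤ n := Nat.cast_nonneg n
  calc en (J * (g.1.map σ)ᵀ * J') ≤ n * (en (J * (g.1.map σ)ᵀ) * en J') := h1
    _ ≤ n * (n * (en J * en g.1) * en J') := by gcongr
    _ = _ := by ring

theorem m2_inv_le (hσ : ∀ x, ‖σ x‖ = ‖x‖) {J J' : Matrix (Fin n) (Fin n) k}
    (hJ : J * J' = 1) {g : SLn k n} (hg : Fo σ J g) :
    m2 (g⁻¹).1 ≤ (n ^ 4 * (m2 J * m2 J')) * m2 g.1 := by
  rw [hg.coe_inv hJ]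
  have h1 := m2_mul (J * (g.1.map σ)ᵀ) J'
  have h2 := m2_mul J (g.1.map σ)ᵀ
  rw [m2_transpose, m2_map hσ] at h2
  have h3 := m2_nonneg J
  have h4 := m2_nonneg J'
  have h5 := m2_nonneg g.1
  have hn : (0 : ℝ) ≤ n := Nat.cast_nonneg n
  calc m2 (J * (g.1.map σ)ᵀ * J') ≤ n ^ 2 * (m2 (J * (g.1.map σ)ᵀ) * m2 J') := h1
    _ ≤ n ^ 2 * (n ^ 2 * (m2 J * m2 g.1) * m2 J') := by gcongr
    _ = _ := by ring

theorem pos_of_le_mul {a b c : ℝ} (ha : 0 < a) (hb : 0 < b) (h : a ≤ c * b) : 0 < c := by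
  by_contra hc
  push Not at hc
  have := mul_nonpos_of_nonpos_of_nonneg hc hb.le
  linarith

/-- `‖g⁻¹‖` and `‖g‖` are comparable. -/
theorem abs_log_en_inv (hn : 2 ≤ n) (hσ : ∀ x, ‖σ x‖ = ‖x‖)
    {J J' : Matrix (Fin n) (Fin n) k} (hJ : J * J' = 1) :
    ∃ C : ℝ, 0 ≤ C ∧ ∀ g : SLn k n, Fo σ J g →
      |Real.log (en (g⁻¹).1) - Real.log (en g.1)| ≤ C := by
  refine ⟨|Real.log (n ^ 2 * (en J * en J'))|, abs_nonneg _, fun g hg => ?_⟩
  have key : ∀ g : SLn k n, Fo σ J g → Real.log (en (g⁻¹).1) ≤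
      |Real.log (n ^ 2 * (en J * en J'))| + Real.log (en g.1) := by
    intro g hg
    have h1 := en_pos (by omega) g
    have h2 := en_pos (by omega) g⁻¹
    have h3 := en_inv_le hσ hJ hg
    have h4 := pos_of_le_mul h2 h1 h3
    have h5 := Real.log_le_log h2 h3
    rw [Real.log_mul h4.ne' h1.ne'] at h5
    have := le_abs_self (Real.log (n ^ 2 * (en J * en J')))
    linarith
  have h1 := key g hg
  have h2 := key g⁻¹ hg.inv
  rw [inv_inv] at h2
  rw [abs_le]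
  constructor <;> linarith

/-- `‖Λ² g⁻¹‖` and `‖Λ² g‖` are comparable. -/
theorem abs_log_m2_inv (hn : 2 ≤ n) (hσ : ∀ x, ‖σ x‖ = ‖x‖)
    {J J' : Matrix (Fin n) (Fin n) k} (hJ : J * J' = 1) :
    ∃ C : ℝ, 0 ≤ C ∧ ∀ g : SLn k n, Fo σ J g →
      |Real.log (m2 (g⁻¹).1) - Real.log (m2 g.1)| ≤ C := by
  refine ⟨|Real.log (n ^ 4 * (m2 J * m2 J'))|, abs_nonneg _, fun g hg => ?_⟩
  have key : ∀ g : SLn k n, Fo σ J g → Real.log (m2 (g⁻¹).1) ≤
      |Real.log (n ^ 4 * (m2 J * m2 J'))| + Real.log (m2 g.1) := by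
    intro g hg
    have h1 := m2_pos hn g
    have h2 := m2_pos hn g⁻¹
    have h3 := m2_inv_le hσ hJ hg
    have h4 := pos_of_le_mul h2 h1 h3
    have h5 := Real.log_le_log h2 h3
    rw [Real.log_mul h4.ne' h1.ne'] at h5
    have := le_abs_self (Real.log (n ^ 4 * (m2 J * m2 J')))
    linarith
  have h1 := key g hg
  have h2 := key g⁻¹ hg.inv
  rw [inv_inv] at h2
  rw [abs_le]
  constructor <;> linarith

/-- The gaps of the inverse. -/
theorem gap_inv (hn : 2 ≤ n) (hσ : ∀ x, ‖σ x‖ = ‖x‖)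
    {J J' : Matrix (Fin n) (Fin n) k} (hJ : J * J' = 1) :
    ∃ C : ℝ, 0 ≤ C ∧ ∀ g : SLn k n, Fo σ J g →
      |L1 g⁻¹ - L1 g| ≤ C ∧ |L2 g⁻¹ - L2 g| ≤ C := by
  obtain ⟨C1, p1, h1⟩ := abs_log_en_inv hn hσ hJ
  obtain ⟨C2, p2, h2⟩ := abs_log_m2_inv hn hσ hJ
  refine ⟨2 * C1 + 2 * C2, by linarith, fun g hg => ?_⟩
  have a1 := h1 g hg
  have a2 := h2 g hg
  rw [abs_le] at a1 a2
  unfold L1 L2
  constructor <;> rw [abs_le] <;> constructor <;> linarith

/-- Quasi-invariance of the gaps. -/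
theorem gap_bd (hn : 2 ≤ n) (s u : SLn k n) : ∃ C : ℝ, ∀ x : SLn k n,
    |L1 (s * x * u) - L1 x| ≤ C ∧ |L2 (s * x * u) - L2 x| ≤ C := by
  obtain ⟨C1, hC1⟩ : ∃ C : ℝ, ∀ x : SLn k n,
      |Real.log (en (s * x * u).1) - Real.log (en x.1)| ≤ C :=
    ⟨_, fun x => abs_log_en hn s x u⟩
  obtain ⟨C2, hC2⟩ : ∃ C : ℝ, ∀ x : SLn k n,
      |Real.log (m2 (s * x * u).1) - Real.log (m2 x.1)| ≤ C :=
    ⟨_, fun x => abs_log_m2 hn s x u⟩
  refine ⟨2 * C1 + 2 * C2, fun x => ?_⟩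
  have h1 := hC1 x
  have h2 := hC2 x
  have p1 : 0 ≤ C1 := (abs_nonneg _).trans h1
  have p2 : 0 ≤ C2 := (abs_nonneg _).trans h2
  rw [abs_le] at h1 h2
  unfold L1 L2
  constructor <;> rw [abs_le] <;> constructor <;> linarith

/-- A uniform form: the constant depends only on a bound for the norms. -/
theorem gap_bd_unif (hn : 2 ≤ n) (R : ℝ) : ∃ C : ℝ, ∀ s u : SLn k n,
    |Real.log (en s.1)| ≤ R → |Real.log (en (s⁻¹).1)| ≤ R → |Real.log (m2 s.1)| ≤ R →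
    |Real.log (m2 (s⁻¹).1)| ≤ R → |Real.log (en u.1)| ≤ R → |Real.log (en (u⁻¹).1)| ≤ R →
    |Real.log (m2 u.1)| ≤ R → |Real.log (m2 (u⁻¹).1)| ≤ R → ∀ x : SLn k n,
    |L1 (s * x * u) - L1 x| ≤ C ∧ |L2 (s * x * u) - L2 x| ≤ C := by
  refine ⟨2 * (2 * Real.log n + (R + R + R + R)) + 2 * (4 * Real.log n + (R + R + R + R)),
    fun s u a1 a2 a3 a4 b1 b2 b3 b4 x => ?_⟩
  have h1 := abs_log_en hn s x u
  have h2 := abs_log_m2 hn s x u
  have p1 : (0 : ℝ) ≤ 2 * Real.log n + (R + R + R + R) := (abs_nonneg _).trans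
    (h1.trans (by gcongr))
  have p2 : (0 : ℝ) ≤ 4 * Real.log n + (R + R + R + R) := (abs_nonneg _).trans
    (h2.trans (by gcongr))
  have e1 : |Real.log (en (s * x * u).1) - Real.log (en x.1)| ≤
      2 * Real.log n + (R + R + R + R) := h1.trans (by gcongr)
  have e2 : |Real.log (m2 (s * x * u).1) - Real.log (m2 x.1)| ≤
      4 * Real.log n + (R + R + R + R) := h2.trans (by gcongr)
  rw [abs_le] at e1 e2
  unfold L1 L2
  constructor <;> rw [abs_le] <;> constructor <;> linarith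

/-- Both gauges bounded: the norm is bounded. -/
theorem log_en_le {g : SLn k n} {r : ℝ} (h1 : L1 g ≤ r) (h2 : L2 g ≤ r) :
    Real.log (en g.1) ≤ 3 / 2 * r := by
  unfold L1 at h1
  unfold L2 at h2
  linarith

/-- Finitely many elements with bounded gauges. -/
theorem fin (hn : 2 ≤ n) {Γ : Type*} (q : Γ → SLn k n)
    (hf : ∀ R : ℝ, {γ | en (q γ).1 ≤ R}.Finite) (r : ℝ) :
    {γ | L1 (q γ) ≤ r ∧ L2 (q γ) ≤ r}.Finite := by
  refine (hf (Real.exp (3 / 2 * r))).subset fun γ hγ => ?_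
  have h1 := log_en_le hγ.1 hγ.2
  rw [Set.mem_ofPred_eq, ← Real.log_le_iff_le_exp (en_pos (by omega) _)]
  exact h1

/-- `L1` is bounded from below. -/
theorem L1_ge (hn : 2 ≤ n) (g : SLn k n) : -Real.log 2 ≤ L1 g := by
  have h := log_m2_le hn g
  unfold L1
  linarith

/-- Near the point wall, in terms of norms. -/
theorem L2_le_iff (hn : 2 ≤ n) {g : SLn k n} {R : ℝ} (hR : 0 < R) :
    m2 g.1 ≤ R * en g.1 ↔ L2 g ≤ 2 * Real.log R := by
  have h1 := en_pos (by omega) g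
  have h2 := m2_pos hn g
  rw [← Real.log_le_log_iff h2 (by positivity), Real.log_mul hR.ne' h1.ne']
  unfold L2
  constructor <;> intro h <;> linarith

/-- Small first gap, in terms of norms. -/
theorem L1_le_iff (hn : 2 ≤ n) {g : SLn k n} {R : ℝ} (hR : 0 < R) :
    en g.1 ^ 2 ≤ R * m2 g.1 ↔ L1 g ≤ Real.log R := by
  have h1 := en_pos (by omega) g
  have h2 := m2_pos hn g
  rw [← Real.log_le_log_iff (by positivity) (by positivity), Real.log_mul hR.ne' h2.ne',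
    Real.log_pow]
  unfold L1
  push_cast
  constructor <;> intro h <;> linarith

/-- The size in terms of the gauges. -/
theorem log_en_eq (g : SLn k n) : Real.log (en g.1) = L1 g + L2 g / 2 := by
  unfold L1 L2
  ring

theorem log_m2_eq (g : SLn k n) : Real.log (m2 g.1) = L1 g + L2 g := by
  unfold L1 L2
  ring

end Vale.Agent.P092.H789.S2
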